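import Vale.Agent.P277.H371.S.LocV
import Vale.Agent.P277.H619.D7

/-!
# P277, T5: special termination, the last step: a hypersurface without contracted surfaces and
without flipped curves is disjoint from the flip
-/

open scoped Manifold ContDiff Topology
open Vale.Agent.P272.K Vale.Agent.P285.H281.FD Set Filter Metric

noncomputable section

namespace Vale.Agent.P277.H371.S

open Vale.Agent.P277.H884.PH

/-- the zero set of a holomorphic function does not have dimension `≤ 2` -/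
theorem not_dimLe_zero {X : CSp} (hX : IsNormal 4 X) {x₀ : X.pt} {g : X.pt → ℂ}
    (hg : X.Hol g x₀) (h0 : g x₀ = 0) {U : Set X.pt} (hU : U ∈ 𝓝 x₀) :
    ¬ DimLe X 2 {y | y ∈ U ∧ g y = 0} := by
  intro hd
  obtain ⟨V, hV, hVo, hx₀⟩ : ∃ V ⊆ U ∩ {x | X.Hol g x}, IsOpen V ∧ x₀ ∈ V := by
    have h1 : U ∩ {x | X.Hol g x} ∈ 𝓝 x₀ := inter_mem hU (hol_eventually hg)
    obtain ⟨V, h2, h3, h4⟩ := _root_.mem_nhds_iff.1 h1
    exact ⟨V, h2, h3, h4⟩
  have hE : IsAn X V {y | g y = 0} := fun x hx => ⟨1, fun _ => g, fun _ => (hV hx).2,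
    Eventually.of_forall fun y => ⟨fun h _ => h, fun h => h 0⟩⟩
  have hd' : DimLe X 2 (V ∩ {y | g y = 0}) := hd.mono fun y hy => ⟨(hV hy.1).1, hy.2⟩
  obtain ⟨g₁, hg₁, hg₂⟩ := hX.ext V {y | g y = 0} hVo hE hd' (fun y => (g y)⁻¹)
    fun x hx => hol_inv (hV hx.1).2 hx.2
  have h1 : (fun y => g y * g₁ y) =ᶠ[𝓝 x₀] fun _ => (1 : ℂ) := by
    refine eventuallyEq_of_dense (dense_compl_of_dimLe (by norm_num) hX.dense hd')
      (hol_mul hg (hg₁ x₀ hx₀)) (hol_const 1 x₀) ?_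
    filter_upwards [hVo.mem_nhds hx₀] with y hy hyE
    have h2 : g y ≠ 0 := fun h => hyE ⟨hy, h⟩
    rw [hg₂ y ⟨hy, h2⟩, mul_inv_cancel₀ h2]
  have h2 := h1.self_of_nhds
  simp only [h0, zero_mul] at h2
  exact zero_ne_one h2

/-- a generic linear combination -/
theorem exists_generic {P κ : Type} [Fintype κ] {C : Set P} (hC : C.Countable) (l : P → κ → ℂ)
    (h : ∀ x ∈ C, ∃ i, l x i ≠ 0) : ∃ w : κ → ℂ, ∀ x ∈ C, ∑ i, w i * l x i ≠ 0 := by
  classical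
  have hd : Dense (⋂ x ∈ C, {w : κ → ℂ | ∑ i, w i * l x i ≠ 0}) := by
    refine dense_biInter_of_isOpen (fun x _ => ?_) hC fun x hx => ?_
    · exact isOpen_ne_fun (by fun_prop) continuous_const
    · obtain ⟨i, hi⟩ := h x hx
      intro w₀
      set φ : ℂ → κ → ℂ := fun t => w₀ + t • Pi.single i 1 with hφ
      have hφc : Continuous φ := by fun_prop
      have hφ0 : φ 0 = w₀ := by simp [hφ]
      have hs : ∀ t, ∑ j, φ t j * l x j = ∑ j, w₀ j * l x j + t * l x i := by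
        intro t
        simp only [hφ, Pi.add_apply, Pi.smul_apply, smul_eq_mul, add_mul, Finset.sum_add_distrib]
        congr 1
        rw [Finset.sum_eq_single i]
        · simp
        · intro j _ hj
          simp [Pi.single_eq_of_ne hj]
        · simp
      have h1 : (0 : ℂ) ∈ closure ({-(∑ j, w₀ j * l x j) / l x i}ᶜ : Set ℂ) := by
        rw [(dense_compl_singleton (-(∑ j, w₀ j * l x j) / l x i)).closure_eq]
        exact mem_univ _
      have h2 : φ 0 ∈ closure (φ '' ({-(∑ j, w₀ j * l x j) / l x i}ᶜ : Set ℂ)) :=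
        image_closure_subset_closure_image hφc ⟨0, h1, rfl⟩
      rw [hφ0] at h2
      refine closure_mono ?_ h2
      rintro _ ⟨t, ht, rfl⟩
      show ∑ j, φ t j * l x j ≠ 0
      rw [hs]
      intro h3
      refine ht ?_
      show t = -(∑ j, w₀ j * l x j) / l x i
      rw [eq_div_iff hi]
      linear_combination h3
  obtain ⟨w, hw⟩ := hd.nonempty
  exact ⟨w, fun x hx => mem_iInter₂.1 hw x hx⟩

theorem countable_of_dimLe {X : CSp} {S : Set X.pt} (h : DimLe X 0 S) : S.Countable := by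
  obtain ⟨Ω, g, -, -, h3⟩ := h
  refine (countable_iUnion fun l => ?_).mono h3
  exact (Set.to_countable (Ω l)).image _

variable {X Z X' : CSp} {f : X.pt → Z.pt} {f' : X'.pt → Z.pt} {L : Bd X.pt} {L' : Bd X'.pt}
  {B : Set X.pt} {B' : Set X'.pt}

/-- Special termination, the last step. -/
theorem spec_left (F : IsFlip X Z X' f f' (Amin f) L L') (hBc : IsClosed B) (hB3 : DimLe X 3 B)
    (hBc' : IsClosed B') (heqn : ∀ x, ∃ g, X.Hol g x ∧ ∀ᶠ y in 𝓝 x, y ∈ B ↔ g y = 0)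
    (hcor : ∀ x x', f x ∉ Amin f → f' x' = f x → (x ∈ B ↔ x' ∈ B')) {Q : Set X.pt}
    (hQ : IsClosed Q) (hQ2 : DimLe X 2 Q) (hmf : ∀ x ∈ B \ Q, IsMfX 3 X B x)
    (h0 : DimLe X' 0 (B' ∩ f' ⁻¹' Amin f)) (h1 : DimLe X 1 (B ∩ f ⁻¹' Amin f)) :
    B ∩ f ⁻¹' Amin f = ∅ := by
  by_contra hne
  obtain ⟨x₀, hx₀B, hx₀A⟩ := nonempty_iff_ne_empty.2 hne
  have hx₀A' : f x₀ ∈ Amin f := hx₀A
  obtain ⟨t, H⟩ := H619.Pr.of_flip F
  obtain ⟨V, k, N, N', s, σ, hV, hz, hk, hs, hσ⟩ := H619.exists_VA F.ample F.ample' (f x₀)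
  have hAA := H619.amin_eq H F.ample F.ample'
  have hAcl : IsClosed (Amin f) := isClosed_of_isAn (H619.isAn_amin H F.ample F.ample')
  obtain ⟨τ, g, hτ, hc, -, -, -, -⟩ := H619.amin_equations H hV hs hσ
  -- a section of `L' ^ k` without zeros on the fibre of `B'`
  choose jj hjj using H.lb'.cover
  obtain ⟨w, hw⟩ := exists_generic (C := B' ∩ f' ⁻¹' {f x₀})
    ((countable_of_dimLe h0).mono (by
      rintro x' ⟨hx1, hx2⟩
      refine ⟨hx1, ?_⟩
      show f' x' ∈ Amin f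
      rw [show f' x' = f x₀ from hx2]; exact hx₀A')) (fun x' l => σ l (jj x') x') (fun x' hx' => by
      have hx2 : f' x' = f x₀ := hx'.2
      exact hσ.gen x' (jj x') (by rw [hx2]; exact hz) (hjj x'))
  set S' : L'.ι → X'.pt → ℂ := fun j x' => ∑ l, w l * σ l j x' with hS'
  have hS's : IsSecx X' (f' ⁻¹' V) (L'.pow k) S' := by
    refine ⟨fun j x' hx' hj => ?_, fun i j x' hx' hi hj => ?_⟩
    · exact hol_sum _ fun l _ => hol_mul (hol_const _ _) ((hσ.sec l).holo j x' hx' hj)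
    · simp only [hS', Finset.mul_sum]
      refine Finset.sum_congr rfl fun l _ => ?_
      rw [(hσ.sec l).change i j x' hx' hi hj]
      ring
  set S : L.ι → X.pt → ℂ := fun i x => ∑ l, w l * τ l i x with hS
  have hSs : IsSecx X (f ⁻¹' V) (L.pow k) S := by
    refine ⟨fun j x' hx' hj => ?_, fun i j x' hx' hi hj => ?_⟩
    · exact hol_sum _ fun l _ => hol_mul (hol_const _ _) ((hτ l).holo j x' hx' hj)
    · simp only [hS, Finset.mul_sum]
      refine Finset.sum_congr rfl fun l _ => ?_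
      rw [(hτ l).change i j x' hx' hi hj]
      ring
  have hcS : ∀ x x' i j, f x ∈ V → f x ∉ Amin f → f' x' = f x → x ∈ L.U i → x' ∈ L'.U j →
      S i x * t i j (f x) ^ k = S' j x' := by
    intro x x' i j hx hxA hx' hi hj
    simp only [hS, hS', Finset.sum_mul]
    refine Finset.sum_congr rfl fun l _ => ?_
    rw [← hc l x x' i j hx hxA hx' hi hj]
    ring
  -- no zeros near the fibre
  set U' : Set X'.pt := {x' | x' ∈ B' → f' x' ∈ V ∧ ∃ j, x' ∈ L'.U j ∧ S' j x' ≠ 0} with hU'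
  have hU'o : IsOpen U' := by
    have e1 : U' = B'ᶜ ∪ {x' | f' x' ∈ V ∧ ∃ j, x' ∈ L'.U j ∧ S' j x' ≠ 0} := by
      ext x'
      simp only [hU', mem_ofPred_eq, mem_union, mem_compl_iff]
      tauto
    rw [e1]
    refine hBc'.isOpen_compl.union ?_
    rw [isOpen_iff_eventually]
    rintro x ⟨hx, i, hi, h0⟩
    filter_upwards [H.sm'.cont.continuousAt.eventually_mem (hV.mem_nhds hx),
      (H.lb'.isOpen i).eventually_mem hi,
      (hol_continuousAt (hS's.holo i x hx hi)).eventually_ne h0] with y h1 h2 h3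
    exact ⟨h1, i, h2, h3⟩
  obtain ⟨V₁', hV₁', hzV₁', hsub⟩ := exists_nhds_preimage_subset H.sm'.cont (z := f x₀) hU'o (by
    intro x' hx' hx'B
    have hx2 : f' x' = f x₀ := hx'
    exact ⟨by rw [hx2]; exact hz, jj x', hjj x', hw x' ⟨hx'B, hx'⟩⟩)
  set V₁ : Set Z.pt := V ∩ V₁' with hV₁d
  have hV₁ : IsOpen V₁ := hV.inter hV₁'
  have hzV₁ : f x₀ ∈ V₁ := ⟨hz, hzV₁'⟩
  -- the transported section
  obtain ⟨i₀, hi₀⟩ := H.lb.cover x₀
  set V₀ : Set X.pt := L.U i₀ ∩ f ⁻¹' V₁ with hV₀d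
  have hV₀ : IsOpen V₀ := (H.lb.isOpen i₀).inter (hV₁.preimage H.sm.cont)
  have hx₀V₀ : x₀ ∈ V₀ := ⟨hi₀, hzV₁⟩
  set h : X.pt → ℂ := S i₀ with hh
  have hhol : ∀ x ∈ V₀, X.Hol h x := fun x hx => hSs.holo i₀ x hx.2.1 hx.1
  have hx₀0 : h x₀ = 0 := by
    have h2 := hx₀A'
    rw [hAA] at h2
    obtain ⟨a, b, ha, hb, hab⟩ := hx₀A'
    obtain ⟨x₁, hx₁, hne⟩ : ∃ x₁, f x₁ = f x₀ ∧ x₁ ≠ x₀ := by
      by_cases hax : a = x₀
      · exact ⟨b, hb, fun h => hab (hax.trans h.symm)⟩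
      · exact ⟨a, ha, hax⟩
    exact H619.vanish H.nX H.nZ H.sm H.lb hV hs hSs hz hx₁ hne hi₀
  have hnz : ∀ y ∈ B, y ∈ V₀ → f y ∉ Amin f → h y ≠ 0 := by
    intro y hyB hyV hyA
    obtain ⟨y', hy'⟩ := H.sm'.surj (f y)
    have hy'B : y' ∈ B' := (hcor y y' hyA hy').1 hyB
    have h2 : y' ∈ U' := hsub (by
      show f' y' ∈ V₁'
      rw [hy']; exact hyV.2.2)
    obtain ⟨-, j, hj, h3⟩ := h2 hy'B
    exact H619.nz_transport H hAA hV hS's hSs hcS hyV.2.1 hyA hy' hyV.1 hj h3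
  -- the maximum principle
  set Q₁ : Set X.pt := Q ∪ (B ∩ f ⁻¹' Amin f) with hQ₁
  have hτc : IsClosed (B ∩ f ⁻¹' Amin f) := hBc.inter (hAcl.preimage H.sm.cont)
  have hQ₁c : IsClosed Q₁ := hQ.union hτc
  have hQ₁2 : DimLe X 2 Q₁ := hQ2.union (h1.le (by norm_num))
  set u : X.pt → ℝ := fun y => - Real.log ‖h y‖ with hu
  obtain ⟨W', hW', K', hK', hK'1, hK'2, hmax⟩ := locV (u := u) hBc hB3 hQ₁c hQ₁2 h1
    (fun x hx => hmf x ⟨hx.1, fun h => hx.2 (Or.inl h)⟩) hV₀ (by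
      rintro x ⟨hxB, hxQ⟩ hxV
      have hxA : f x ∉ Amin f := fun h => hxQ (Or.inr ⟨hxB, h⟩)
      have hx0 := hnz x hxB hxV hxA
      refine ⟨fun y => (fun z => - Complex.log (z / h x) - (Real.log ‖h x‖ : ℂ)) (h y), ?_, ?_⟩
      · refine hol_comp₁ (G := fun z => - Complex.log (z / h x) - (Real.log ‖h x‖ : ℂ)) (hhol x hxV) ?_
        refine AnalyticAt.sub (AnalyticAt.neg ?_) analyticAt_const
        refine AnalyticAt.clog (analyticAt_id.div analyticAt_const hx0) ?_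
        simp only [div_self hx0]
        exact Complex.one_mem_slitPlane
      · filter_upwards [(hol_continuousAt (hhol x hxV)).eventually_ne hx0] with y hy _
        simp only [hu, Complex.sub_re, Complex.neg_re, Complex.log_re, Complex.ofReal_re, norm_div]
        rw [Real.log_div (norm_ne_zero_iff.2 hy) (norm_ne_zero_iff.2 hx0)]
        ring) (by
      rintro x ⟨hxB, hxQ⟩ hxV
      have hxA : f x ∉ Amin f := fun h => hxQ ⟨hxB, h⟩
      have hx0 := hnz x hxB hxV hxA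
      have hc : ContinuousAt u x :=
        ((hol_continuousAt (hhol x hxV)).norm.log (norm_ne_zero_iff.2 hx0)).neg
      refine ⟨|u x| + 1, ?_⟩
      filter_upwards [hc.abs.eventually_lt_const (lt_add_one |u x|)] with y hy _
      exact hy.le) hx₀V₀
  -- a bound on the compact set
  have huc : ContinuousOn u K' := by
    intro y hy
    have hyB := (hK'1 hy).1
    have hyA : f y ∉ Amin f := fun h => (hK'1 hy).2 (Or.inr ⟨hyB, h⟩)
    exact ((hol_continuousAt (hhol y (hK'2 hy))).norm.log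
      (norm_ne_zero_iff.2 (hnz y hyB (hK'2 hy) hyA))).neg.continuousWithinAt
  obtain ⟨M, hM⟩ : ∃ M, ∀ y ∈ K', u y ≤ M := by
    obtain ⟨M, hM⟩ := (hK'.image_of_continuousOn huc).bddAbove
    exact ⟨M, fun y hy => hM ⟨y, hy, rfl⟩⟩
  have hle := hmax M hM
  -- `x₀` is in the closure of `B \ Q₁`
  have hev : ∀ᶠ y in 𝓝 x₀, ‖h y‖ < Real.exp (-M) := by
    have h2 := (hol_continuousAt (hhol x₀ hx₀V₀)).norm
    refine h2.eventually_lt_const ?_
    show ‖h x₀‖ < _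
    rw [hx₀0, norm_zero]
    exact Real.exp_pos _
  obtain ⟨g₀, hg₀, hg₀e⟩ := heqn x₀
  have hg₀0 : g₀ x₀ = 0 := hg₀e.self_of_nhds.1 hx₀B
  have hnd := not_dimLe_zero H.nX hg₀ hg₀0 (U := {y | (y ∈ B ↔ g₀ y = 0) ∧ ‖h y‖ < Real.exp (-M) ∧
    y ∈ W' ∧ y ∈ V₀}) (inter_mem hg₀e (inter_mem hev (inter_mem hW' (hV₀.mem_nhds hx₀V₀))))
  refine hnd (hQ₁2.mono ?_)
  rintro y ⟨⟨hy1, hy2, hy3, hy4⟩, hy5⟩
  by_contra hyQ
  have hyB : y ∈ B := hy1.2 hy5
  have hyA : f y ∉ Amin f := fun h => hyQ (Or.inr ⟨hyB, h⟩)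
  have hy0 := hnz y hyB hy4 hyA
  have h2 := hle y hy3 ⟨hyB, hyQ⟩
  have h3 : Real.log ‖h y‖ < -M := by
    rw [Real.log_lt_iff_lt_exp (norm_pos_iff.2 hy0)]
    exact hy2
  simp only [hu] at h2
  linarith

/-- the other side -/
theorem spec_right (hf : Continuous f) (hX' : IsNormal 4 X') (hsurj : Function.Surjective f)
    (hd : DimLe X' 2 (f' ⁻¹' Amin f)) (hf' : Continuous f')
    (hBc : IsClosed B) (heqn' : ∀ x, ∃ g, X'.Hol g x ∧ ∀ᶠ y in 𝓝 x, y ∈ B' ↔ g y = 0)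
    (hcor : ∀ x x', f x ∉ Amin f → f' x' = f x → (x ∈ B ↔ x' ∈ B'))
    (h : B ∩ f ⁻¹' Amin f = ∅) : B' ∩ f' ⁻¹' Amin f = ∅ := by
  by_contra hne
  obtain ⟨x', hx'B, hx'A⟩ := nonempty_iff_ne_empty.2 hne
  have hx'A' : f' x' ∈ Amin f := hx'A
  obtain ⟨V, hV, hzV, hsub⟩ := exists_nhds_preimage_subset hf (z := f' x') hBc.isOpen_compl (by
    intro x hx hxB
    have hx2 : f x = f' x' := hx
    have h2 : x ∈ B ∩ f ⁻¹' Amin f := ⟨hxB, by show f x ∈ Amin f; rw [hx2]; exact hx'A'⟩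
    rw [h] at h2
    exact h2)
  obtain ⟨g, hg, hge⟩ := heqn' x'
  refine not_dimLe_zero hX' hg (hge.self_of_nhds.1 hx'B)
    (U := {y | (y ∈ B' ↔ g y = 0) ∧ f' y ∈ V})
    (hge.and (hf'.continuousAt.eventually_mem (hV.mem_nhds hzV))) (hd.mono ?_)
  rintro y ⟨⟨hy1, hy2⟩, hy3⟩
  by_contra hyA
  have hyA' : f' y ∉ Amin f := hyA
  obtain ⟨x, hx⟩ := hsurj (f' y)
  have hxB : x ∈ B := (hcor x y (by rw [hx]; exact hyA') hx.symm).2 (hy1.2 hy3)
  exact hsub (show f x ∈ V by rw [hx]; exact hy2) hxB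

end Vale.Agent.P277.H371.S
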